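import Mathlib
import Vale.Agent.P123.Numerical

/-
Crouzeix's conjecture: the least constant is `2`.
-/

universe u

open Complex Metric Set Polynomial

namespace Vale.Agent.Results.P123.CrouzeixConjecture

/- The inner product below is Mathlib's `InnerProductSpace.toInner`, made a local instance so that
no other (equal) library instance is picked up when elaborating the statement. -/
attribute [local instance high] InnerProductSpace.toInner

theorem result :
    IsLeast {C : ℝ | ∀ (H : Type u) [NormedAddCommGroup H] [InnerProductSpace ℂ H]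
        [CompleteSpace H] [Nontrivial H] (A : H →L[ℂ] H) (P : Polynomial ℂ),
        ‖Polynomial.aeval A P‖ ≤
          C * sSup ((fun z : ℂ => ‖P.eval z‖) '' {z : ℂ | ∃ x : H, ‖x‖ = 1 ∧ z = inner ℂ x (A x)})}
      2 := by
  constructor
  · intro H _ _ _ _ A P
    set W := {z : ℂ | ∃ x : H, ‖x‖ = 1 ∧ z = inner ℂ x (A x)} with hW
    have hsub : W ⊆ closedBall (0:ℂ) ‖A‖ := by
      rintro z ⟨x, hx, rfl⟩
      rw [mem_closedBall_zero_iff]
      calc ‖inner ℂ x (A x)‖ ≤ ‖x‖ * ‖A x‖ := norm_inner_le_norm _ _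
        _ ≤ ‖x‖ * (‖A‖ * ‖x‖) := by gcongr; exact A.le_opNorm x
        _ = ‖A‖ := by rw [hx]; ring
    obtain ⟨C, hC⟩ := (isCompact_closedBall (0:ℂ) ‖A‖).exists_bound_of_continuousOn
      P.continuous.continuousOn
    have hbdd : BddAbove ((fun z : ℂ => ‖P.eval z‖) '' W) :=
      ⟨C, by rintro _ ⟨z, hz, rfl⟩; exact hC z (hsub hz)⟩
    apply Vale.Agent.P123.crouzeix_two A P
    · exact Real.sSup_nonneg (by rintro _ ⟨z, _, rfl⟩; exact norm_nonneg _)
    · exact fun z hz => le_csSup hbdd ⟨z, hz, rfl⟩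
  · intro C hC
    classical
    let e : ULift.{u} (Fin 2) → EuclideanSpace ℂ (ULift.{u} (Fin 2)) :=
      EuclideanSpace.basisFun (ULift.{u} (Fin 2)) ℂ
    have hon : Orthonormal ℂ e := (EuclideanSpace.basisFun (ULift.{u} (Fin 2)) ℂ).orthonormal
    let i : ULift.{u} (Fin 2) := ⟨0⟩
    let j : ULift.{u} (Fin 2) := ⟨1⟩
    have hij : i ≠ j := fun h => absurd (congrArg ULift.down h) (by decide : (0 : Fin 2) ≠ 1)
    have : Nontrivial (EuclideanSpace ℂ (ULift.{u} (Fin 2))) :=
      ⟨⟨e i, 0, hon.ne_zero i⟩⟩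
    let A : EuclideanSpace ℂ (ULift.{u} (Fin 2)) →L[ℂ] EuclideanSpace ℂ (ULift.{u} (Fin 2)) :=
      (innerSL ℂ (e j)).smulRight (e i)
    have h := hC _ A Polynomial.X
    have hA : 1 ≤ ‖A‖ := by
      have := A.le_opNorm (e j)
      have hAe : A (e j) = e i := by
        simp [A, inner_self_eq_norm_sq_to_K, hon.1 j]
      rw [hAe, hon.1 i, hon.1 j, mul_one] at this
      exact this
    set W := {z : ℂ | ∃ x : EuclideanSpace ℂ (ULift.{u} (Fin 2)),
      ‖x‖ = 1 ∧ z = inner ℂ x (A x)} with hW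
    have hle : ∀ z ∈ W, ‖z‖ ≤ 1 / 2 := by
      rintro z ⟨x, hx, rfl⟩
      have hb := hon.sum_inner_products_le x (s := {i, j})
      rw [Finset.sum_pair hij, hx] at hb
      have hz : ‖inner ℂ x (A x)‖ = ‖inner ℂ (e i) x‖ * ‖inner ℂ (e j) x‖ := by
        simp only [A, ContinuousLinearMap.smulRight_apply, innerSL_apply_apply, inner_smul_right,
          norm_mul]
        rw [norm_inner_symm x (e i)]
        ring
      rw [hz]
      nlinarith [sq_nonneg (‖inner ℂ (e i) x‖ - ‖inner ℂ (e j) x‖)]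
    rw [aeval_X] at h
    have hs : sSup ((fun z : ℂ => ‖(Polynomial.X : Polynomial ℂ).eval z‖) '' W) ≤ 1 / 2 := by
      refine Real.sSup_le ?_ (by norm_num)
      rintro _ ⟨z, hz, rfl⟩
      simp only [eval_X]
      exact hle z hz
    have hs0 : 0 ≤ sSup ((fun z : ℂ => ‖(Polynomial.X : Polynomial ℂ).eval z‖) '' W) :=
      Real.sSup_nonneg (by rintro _ ⟨z, _, rfl⟩; exact norm_nonneg _)
    by_contra hC2
    push Not at hC2
    rcases le_or_gt 0 C with hC0 | hC0
    · have := mul_le_mul_of_nonneg_left hs hC0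
      linarith
    · have := mul_nonpos_of_nonpos_of_nonneg hC0.le hs0
      linarith

end Vale.Agent.Results.P123.CrouzeixConjecture
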